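import Mathlib

namespace Vale.Agent.Results.P342.BooleanBarrier

/-- `f` is an `n`-ary polymorphism of the pair `(K_3, K_c)`: a proper `c`-colouring of the
`n`-th tensor power of the triangle. -/
def IsPol (c n : ℕ) (f : (Fin n → Fin 3) → Fin c) : Prop :=
  ∀ x y : Fin n → Fin 3, (∀ i, x i ≠ y i) → f x ≠ f y

/-- The set of `n`-ary polymorphisms of `(K_3, K_c)`. -/
def Pol (c n : ℕ) : Type := {f : (Fin n → Fin 3) → Fin c // IsPol c n f}

/-- The minor of a polymorphism along a map of coordinates. -/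
def Pol.minor {c n m : ℕ} (f : Pol c n) (p : Fin n → Fin m) : Pol c m :=
  ⟨fun x => f.1 (x ∘ p), fun _ _ h => f.2 _ _ (fun i => h (p i))⟩

/-- A promise template whose left structure has the two-element domain `Bool` and whose right
structure has domain `B`: a family of pairs of relations of the same arity. -/
structure BoolTemplate (B : Type) where
  idx : Type
  ar : idx → ℕ
  relA : (j : idx) → Set (Fin (ar j) → Bool)
  relB : (j : idx) → Set (Fin (ar j) → B)

/-- `g` is an `n`-ary polymorphism of the template: applied coordinatewise to `n` tuples of a left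
relation it gives a tuple of the corresponding right relation. -/
def BoolTemplate.IsPol {B : Type} (T : BoolTemplate B) (n : ℕ) (g : (Fin n → Bool) → B) : Prop :=
  ∀ (j : T.idx) (M : Fin n → Fin (T.ar j) → Bool), (∀ i, M i ∈ T.relA j) →
    (fun r => g (fun i => M i r)) ∈ T.relB j

/-- A minion homomorphism from the polymorphisms of `(K_3, K_c)` to the polymorphisms of `T`:
an arity preserving map that commutes with taking minors. -/
structure MinionHom (c : ℕ) {B : Type} (T : BoolTemplate B) where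
  toFun : (n : ℕ) → Pol c n → ((Fin n → Bool) → B)
  isPol : ∀ n f, T.IsPol n (toFun n f)
  minor : ∀ (n m : ℕ) (p : Fin n → Fin m) (f : Pol c n) (y : Fin m → Bool),
    toFun m (f.minor p) y = toFun n f (y ∘ p)

/-- Boolean majority of odd arity `2 k + 1`. -/
def maj (k : ℕ) (y : Fin (2 * k + 1) → Bool) : Bool :=
  decide (k < (Finset.univ.filter (fun i => y i = true)).card)

/-- number of coordinates of `x` equal to `a` -/
def cnt {n : ℕ} {α : Type} [DecidableEq α] (x : Fin n → α) (a : α) : ℕ :=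
  (Finset.univ.filter (fun i => x i = a)).card

theorem cnt_disj {k : ℕ} {α : Type} [DecidableEq α] (x y : Fin (2 * k + 1) → α) (a b : α)
    (h : ∀ i, ¬ (x i = a ∧ y i = b)) : ¬ (k < cnt x a ∧ k < cnt y b) := by
  rintro ⟨h1, h2⟩
  have hd : Disjoint (Finset.univ.filter (fun i => x i = a))
      (Finset.univ.filter (fun i => y i = b)) := by
    rw [Finset.disjoint_filter]
    intro i _ hx hy
    exact h i ⟨hx, hy⟩
  have hc := Finset.card_union_of_disjoint hd
  have hle : ((Finset.univ.filter (fun i => x i = a)) ∪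
      (Finset.univ.filter (fun i => y i = b))).card ≤ 2 * k + 1 := by
    calc _ ≤ (Finset.univ : Finset (Fin (2 * k + 1))).card := Finset.card_le_card (Finset.subset_univ _)
      _ = 2 * k + 1 := by simp
  unfold cnt at h1 h2
  omega

/-- value of the threshold colouring -/
def thrVal (k : ℕ) (x : Fin (2 * k + 1) → Fin 3) : ℕ :=
  if k < cnt x 0 then 0 else if k < cnt x 1 then 1 else if k < cnt x 2 then 2 else 3 + (x 0).val

theorem thrVal_lt (k : ℕ) (x : Fin (2 * k + 1) → Fin 3) : thrVal k x < 6 := by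
  unfold thrVal
  have := (x 0).isLt
  split_ifs <;> omega

theorem thrVal_of_cnt (k : ℕ) (x : Fin (2 * k + 1) → Fin 3) (a : Fin 3) (h : k < cnt x a) :
    thrVal k x = a.val := by
  have huniq : ∀ b : Fin 3, k < cnt x b → b = a := by
    intro b hb
    by_contra hne
    exact cnt_disj x x b a (fun i hi => hne (hi.1.symm.trans hi.2)) ⟨hb, h⟩
  unfold thrVal
  split_ifs with h0 h1 h2
  · rw [← huniq 0 h0]; rfl
  · rw [← huniq 1 h1]; rfl
  · rw [← huniq 2 h2]; rfl
  · exfalso
    fin_cases a
    · exact h0 h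
    · exact h1 h
    · exact h2 h

theorem thrVal_ne (k : ℕ) (x y : Fin (2 * k + 1) → Fin 3) (hxy : ∀ i, x i ≠ y i) :
    thrVal k x ≠ thrVal k y := by
  have key : ∀ a : Fin 3, ¬ (k < cnt x a ∧ k < cnt y a) := fun a =>
    cnt_disj x y a a (fun i hi => hxy i (hi.1.trans hi.2.symm))
  have k0 := key 0
  have k1 := key 1
  have k2 := key 2
  have h0 : (x 0).val ≠ (y 0).val := fun h => hxy 0 (Fin.ext h)
  unfold thrVal
  split_ifs <;> omega

/-- the threshold polymorphism of arity `2 k + 1` of `(K_3, K_c)` for `c ≥ 6` -/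
def thr (c : ℕ) (hc : 6 ≤ c) (k : ℕ) : Pol c (2 * k + 1) :=
  ⟨fun x => ⟨thrVal k x, lt_of_lt_of_le (thrVal_lt k x) hc⟩, fun x y h he =>
    thrVal_ne k x y h (congrArg Fin.val he)⟩

/-- the binary polymorphism that returns its first argument -/
def dict (c : ℕ) (hc : 6 ≤ c) : Pol c 2 :=
  ⟨fun x => ⟨(x 0).val, by have := (x 0).isLt; omega⟩, fun x y h he =>
    h 0 (Fin.ext (by simpa using congrArg Fin.val he))⟩

theorem thr_minor (c : ℕ) (hc : 6 ≤ c) (k : ℕ) (p : Fin (2 * k + 1) → Fin 2)
    (hp : k < cnt p 0) : (thr c hc k).minor p = dict c hc := by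
  apply Subtype.ext
  funext z
  apply Fin.ext
  change thrVal k (z ∘ p) = (z 0).val
  apply thrVal_of_cnt
  refine lt_of_lt_of_le hp ?_
  unfold cnt
  apply Finset.card_le_card
  intro i hi
  simp only [Finset.mem_filter, Finset.mem_univ, true_and, Function.comp] at hi ⊢
  rw [hi]

theorem cnt_bool (k : ℕ) (y : Fin (2 * k + 1) → Bool) :
    cnt y true + cnt y false = 2 * k + 1 := by
  unfold cnt
  have h := Finset.card_filter_add_card_filter_not (s := (Finset.univ : Finset (Fin (2 * k + 1))))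
    (fun i => y i = true)
  simp only [Finset.card_univ, Fintype.card_fin] at h
  have h2 : (Finset.univ.filter (fun i => ¬ y i = true)) = Finset.univ.filter (fun i => y i = false) := by
    ext i; simp
  rw [h2] at h
  exact h

theorem barrier (c : ℕ) (hc : 6 ≤ c) {B : Type} (T : BoolTemplate B) (ξ : MinionHom c T) :
    ∃ u : Bool → B, ∀ k : ℕ, T.IsPol (2 * k + 1) (fun y => u (maj k y)) := by
  refine ⟨fun b => ξ.toFun 2 (dict c hc) (fun j => if j = 0 then b else !b), fun k => ?_⟩
  have hEq : ξ.toFun (2 * k + 1) (thr c hc k) =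
      (fun y => ξ.toFun 2 (dict c hc) (fun j => if j = 0 then maj k y else !(maj k y))) := by
    funext y
    set b := maj k y with hb
    let p : Fin (2 * k + 1) → Fin 2 := fun i => if y i = b then 0 else 1
    have hp : k < cnt p 0 := by
      have hpc : cnt p 0 = cnt y b := by
        unfold cnt
        congr 1
        ext i
        simp only [Finset.mem_filter, Finset.mem_univ, true_and, p]
        by_cases h : y i = b <;> simp [h]
      rw [hpc]
      have hs := cnt_bool k y
      by_cases h : k < cnt y true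
      · have : b = true := by rw [hb]; unfold maj; simpa [cnt] using h
        rw [this]; exact h
      · have : b = false := by rw [hb]; unfold maj; simpa [cnt] using h
        rw [this]; omega
    have hy : y = (fun j : Fin 2 => if j = 0 then b else !b) ∘ p := by
      funext i
      simp only [Function.comp, p]
      by_cases h : y i = b
      · simp [h]
      · have : y i = !b := by
          cases hyi : y i <;> cases hbb : b <;> simp_all
        simp [this]
    have h1 := ξ.minor (2 * k + 1) 2 p (thr c hc k) (fun j : Fin 2 => if j = 0 then b else !b)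
    rw [thr_minor c hc k p hp] at h1
    rw [h1, ← hy]
  have := ξ.isPol (2 * k + 1) (thr c hc k)
  rw [hEq] at this
  exact this

/-- A six-ary polymorphism of `(K_3, K_c)` satisfying the Olsak identities forces `c ≥ 6`. -/
theorem six_le_of_olsak (c : ℕ) (o : (Fin 6 → Fin 3) → Fin c) (ho : IsPol c 6 o)
    (h1 : ∀ x y : Fin 3, o ![x, x, y, y, y, x] = o ![x, y, x, y, x, y])
    (h2 : ∀ x y : Fin 3, o ![x, y, x, y, x, y] = o ![y, x, x, x, y, y]) : 6 ≤ c := by
  have a1 := h1 2 1
  have a2 := h2 2 1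
  have b1 := h1 1 0
  have b2 := h2 1 0
  have c1 := h1 0 2
  have c2 := h2 0 2
  have n01 : o ![2, 2, 1, 1, 1, 2] ≠ o ![2, 1, 0, 1, 0, 2] := by
    rw [a1, a2]; exact ho _ _ (by decide)
  have n02 : o ![2, 2, 1, 1, 1, 2] ≠ o ![1, 1, 0, 0, 0, 1] := ho _ _ (by decide)
  have n03 : o ![2, 2, 1, 1, 1, 2] ≠ o ![1, 0, 2, 0, 2, 1] := ho _ _ (by decide)
  have n04 : o ![2, 2, 1, 1, 1, 2] ≠ o ![0, 2, 1, 2, 1, 0] := by
    rw [a1]; exact ho _ _ (by decide)
  have n05 : o ![2, 2, 1, 1, 1, 2] ≠ o ![0, 0, 2, 2, 2, 0] := ho _ _ (by decide)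
  have n12 : o ![2, 1, 0, 1, 0, 2] ≠ o ![1, 1, 0, 0, 0, 1] := by
    rw [b1]; exact ho _ _ (by decide)
  have n13 : o ![2, 1, 0, 1, 0, 2] ≠ o ![1, 0, 2, 0, 2, 1] := ho _ _ (by decide)
  have n14 : o ![2, 1, 0, 1, 0, 2] ≠ o ![0, 2, 1, 2, 1, 0] := ho _ _ (by decide)
  have n15 : o ![2, 1, 0, 1, 0, 2] ≠ o ![0, 0, 2, 2, 2, 0] := ho _ _ (by decide)
  have n23 : o ![1, 1, 0, 0, 0, 1] ≠ o ![1, 0, 2, 0, 2, 1] := by
    rw [b1, b2]; exact ho _ _ (by decide)
  have n24 : o ![1, 1, 0, 0, 0, 1] ≠ o ![0, 2, 1, 2, 1, 0] := ho _ _ (by decide)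
  have n25 : o ![1, 1, 0, 0, 0, 1] ≠ o ![0, 0, 2, 2, 2, 0] := ho _ _ (by decide)
  have n34 : o ![1, 0, 2, 0, 2, 1] ≠ o ![0, 2, 1, 2, 1, 0] := ho _ _ (by decide)
  have n35 : o ![1, 0, 2, 0, 2, 1] ≠ o ![0, 0, 2, 2, 2, 0] := by
    rw [c1]; exact ho _ _ (by decide)
  have n45 : o ![0, 2, 1, 2, 1, 0] ≠ o ![0, 0, 2, 2, 2, 0] := by
    rw [c1, c2]; exact ho _ _ (by decide)
  clear a1 a2 b1 b2 c1 c2 h1 h2
  have hcard : ({o ![2, 2, 1, 1, 1, 2], o ![2, 1, 0, 1, 0, 2], o ![1, 1, 0, 0, 0, 1],
      o ![1, 0, 2, 0, 2, 1], o ![0, 2, 1, 2, 1, 0], o ![0, 0, 2, 2, 2, 0]} : Finset (Fin c)).card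
      = 6 := by
    rw [Finset.card_insert_of_notMem (by simp [*]), Finset.card_insert_of_notMem (by simp [*]),
      Finset.card_insert_of_notMem (by simp [*]), Finset.card_insert_of_notMem (by simp [*]),
      Finset.card_insert_of_notMem (by simp [*]), Finset.card_singleton]
  have := Finset.card_le_univ
    ({o ![2, 2, 1, 1, 1, 2], o ![2, 1, 0, 1, 0, 2], o ![1, 1, 0, 0, 0, 1],
      o ![1, 0, 2, 0, 2, 1], o ![0, 2, 1, 2, 1, 0], o ![0, 0, 2, 2, 2, 0]} : Finset (Fin c))
  rw [hcard, Fintype.card_fin] at this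
  exact this

/-- the template (not-all-equal on `Bool`, not-all-equal on `B`) -/
def naeTemplate (B : Type) : BoolTemplate B where
  idx := Unit
  ar := fun _ => 3
  relA := fun _ => {t | ¬ (t 0 = t 1 ∧ t 1 = t 2)}
  relB := fun _ => {t | ¬ (t 0 = t 1 ∧ t 1 = t 2)}

/-- `false` is sent to the first and `true` to the second of two coordinates -/
def bit (b : Bool) : Fin 2 := if b then 1 else 0

/-- position of a column in the Olsak pattern -/
def col (t : Fin 3 → Bool) : Fin 6 :=
  match t 0, t 1, t 2 with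
  | false, false, true => 0
  | false, true, false => 1
  | true, false, false => 2
  | true, true, false => 3
  | true, false, true => 4
  | false, true, true => 5
  | _, _, _ => 0

theorem col_spec (z : Fin 2 → Fin 3) (t : Fin 3 → Bool) (ht : ¬ (t 0 = t 1 ∧ t 1 = t 2)) :
    ![z 0, z 0, z 1, z 1, z 1, z 0] (col t) = z (bit (t 0)) ∧
    ![z 0, z 1, z 0, z 1, z 0, z 1] (col t) = z (bit (t 1)) ∧
    ![z 1, z 0, z 0, z 0, z 1, z 1] (col t) = z (bit (t 2)) := by
  unfold col bit
  cases h0 : t 0 <;> cases h1 : t 1 <;> cases h2 : t 2 <;> simp_all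

theorem nae_isPol (c : ℕ) (hc : c < 6) (n : ℕ) (f : Pol c n) (M : Fin n → Fin 3 → Bool)
    (hM : ∀ i, ¬ (M i 0 = M i 1 ∧ M i 1 = M i 2)) :
    ¬ (f.minor (fun i => bit (M i 0)) = f.minor (fun i => bit (M i 1)) ∧
      f.minor (fun i => bit (M i 1)) = f.minor (fun i => bit (M i 2))) := by
  intro hEq
  have e1 : ∀ z : Fin 2 → Fin 3, f.1 (z ∘ fun i => bit (M i 0)) = f.1 (z ∘ fun i => bit (M i 1)) :=
    fun z => congrFun (congrArg Subtype.val hEq.1) z
  have e2 : ∀ z : Fin 2 → Fin 3, f.1 (z ∘ fun i => bit (M i 1)) = f.1 (z ∘ fun i => bit (M i 2)) :=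
    fun z => congrFun (congrArg Subtype.val hEq.2) z
  have r0 : ∀ z : Fin 2 → Fin 3, (![z 0, z 0, z 1, z 1, z 1, z 0] ∘ fun i => col (M i)) =
      (z ∘ fun i => bit (M i 0)) := fun z => funext fun i => (col_spec z (M i) (hM i)).1
  have r1 : ∀ z : Fin 2 → Fin 3, (![z 0, z 1, z 0, z 1, z 0, z 1] ∘ fun i => col (M i)) =
      (z ∘ fun i => bit (M i 1)) := fun z => funext fun i => (col_spec z (M i) (hM i)).2.1
  have r2 : ∀ z : Fin 2 → Fin 3, (![z 1, z 0, z 0, z 0, z 1, z 1] ∘ fun i => col (M i)) =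
      (z ∘ fun i => bit (M i 2)) := fun z => funext fun i => (col_spec z (M i) (hM i)).2.2
  have h6 := six_le_of_olsak c (f.minor (fun i => col (M i))).1 (f.minor (fun i => col (M i))).2
    (fun x y => by
      change f.1 (![x, x, y, y, y, x] ∘ fun i => col (M i)) =
        f.1 (![x, y, x, y, x, y] ∘ fun i => col (M i))
      have := e1 ![x, y]
      rw [← r0 ![x, y], ← r1 ![x, y]] at this
      exact this)
    (fun x y => by
      change f.1 (![x, y, x, y, x, y] ∘ fun i => col (M i)) =
        f.1 (![y, x, x, x, y, y] ∘ fun i => col (M i))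
      have := e2 ![x, y]
      rw [← r1 ![x, y], ← r2 ![x, y]] at this
      exact this)
  omega

/-- for `c ≤ 5` the binary minors give a minion homomorphism to hypergraph colouring -/
def naeHom (c : ℕ) (hc : c < 6) : MinionHom c (naeTemplate (Pol c 2)) where
  toFun := fun _ f y => f.minor (fun i => bit (y i))
  isPol := fun n f _ M hM => nae_isPol c hc n f M hM
  minor := fun _ _ _ _ _ => rfl

theorem nae_no_maj (B : Type) (u : Bool → B) :
    ¬ (naeTemplate B).IsPol (2 * 1 + 1) (fun y => u (maj 1 y)) := by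
  intro h
  have hM : ∀ i : Fin (2 * 1 + 1), ¬ (decide (i.val ≠ (0 : Fin 3).val) = decide (i.val ≠ (1 : Fin 3).val) ∧
      decide (i.val ≠ (1 : Fin 3).val) = decide (i.val ≠ (2 : Fin 3).val)) := by decide
  have := h () (fun i r => decide (i.val ≠ r.val)) hM
  apply this
  constructor <;> rfl

/-- Sharp Boolean barrier at six colours.  The following holds exactly when `c ≥ 6`: whenever the
polymorphisms of `(K_3, K_c)` admit a minion homomorphism to the polymorphisms of a promise
template `T` with Boolean left domain, there is `u : Bool → B` such that `u ∘ maj` is a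
polymorphism of `T` in every odd arity. -/
theorem result (c : ℕ) :
    6 ≤ c ↔ ∀ (B : Type) (T : BoolTemplate B), MinionHom c T →
      ∃ u : Bool → B, ∀ k : ℕ, T.IsPol (2 * k + 1) (fun y => u (maj k y)) := by
  constructor
  · intro hc B T ξ
    exact barrier c hc T ξ
  · intro h
    by_contra hc
    obtain ⟨u, hu⟩ := h _ _ (naeHom c (by omega))
    exact nae_no_maj _ u (hu 1)

end Vale.Agent.Results.P342.BooleanBarrier
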