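import Vale.Agent.Results.P342.AbsMajorityBarrier
import Vale.Agent.Results.P342.BooleanBarrier

namespace Vale.Agent.Results.P342.A000_Combined

/-- The two sharp barriers at `c = 6` for gadget reductions to `3`-versus-`c` colouring, stated
together: the one for arbitrary promise templates (absolute majority polymorphisms) and the one for
templates with a Boolean left structure (majority polymorphisms). -/
theorem result (c : ℕ) :
    (6 ≤ c ↔ ∀ (A B : Type) (T : AbsMajorityBarrier.Template A B),
      AbsMajorityBarrier.MinionHom c T →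
      ∃ u : A → B, ∀ k : ℕ, ∃ g : (Fin (2 * k + 1) → A) → B, T.IsPol (2 * k + 1) g ∧
        ∀ (y : Fin (2 * k + 1) → A) (a : A), k < AbsMajorityBarrier.cnt y a → g y = u a) ∧
    (6 ≤ c ↔ ∀ (B : Type) (T : BooleanBarrier.BoolTemplate B), BooleanBarrier.MinionHom c T →
      ∃ u : Bool → B, ∀ k : ℕ, T.IsPol (2 * k + 1) (fun y => u (BooleanBarrier.maj k y))) :=
  ⟨AbsMajorityBarrier.result c, BooleanBarrier.result c⟩

end Vale.Agent.Results.P342.A000_Combined
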