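import Mathlib

namespace Vale.Agent.Results.P342.AbsMajorityBarrier

/-- `f` is an `n`-ary polymorphism of the pair `(K_3, K_c)`: a proper `c`-colouring of the
`n`-th tensor power of the triangle. -/
def IsPol (c n : ℕ) (f : (Fin n → Fin 3) → Fin c) : Prop :=
  ∀ x y : Fin n → Fin 3, (∀ i, x i ≠ y i) → f x ≠ f y

/-- The set of `n`-ary polymorphisms of `(K_3, K_c)`. -/
def Pol (c n : ℕ) : Type := {f : (Fin n → Fin 3) → Fin c // IsPol c n f}

/-- The minor of a polymorphism along a map of coordinates. -/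
def Pol.minor {c n m : ℕ} (f : Pol c n) (p : Fin n → Fin m) : Pol c m :=
  ⟨fun x => f.1 (x ∘ p), fun _ _ h => f.2 _ _ (fun i => h (p i))⟩

/-- A promise template: a left structure with domain `A` and a right structure with domain `B`,
given by a family of pairs of relations of the same arity. -/
structure Template (A B : Type) where
  idx : Type
  ar : idx → ℕ
  relA : (j : idx) → Set (Fin (ar j) → A)
  relB : (j : idx) → Set (Fin (ar j) → B)

/-- `g` is an `n`-ary polymorphism of the template: applied coordinatewise to `n` tuples of a left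
relation it gives a tuple of the corresponding right relation. -/
def Template.IsPol {A B : Type} (T : Template A B) (n : ℕ) (g : (Fin n → A) → B) : Prop :=
  ∀ (j : T.idx) (M : Fin n → Fin (T.ar j) → A), (∀ i, M i ∈ T.relA j) →
    (fun r => g (fun i => M i r)) ∈ T.relB j

/-- A minion homomorphism from the polymorphisms of `(K_3, K_c)` to the polymorphisms of `T`:
an arity preserving map that commutes with taking minors. -/
structure MinionHom (c : ℕ) {A B : Type} (T : Template A B) where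
  toFun : (n : ℕ) → Pol c n → ((Fin n → A) → B)
  isPol : ∀ n f, T.IsPol n (toFun n f)
  minor : ∀ (n m : ℕ) (p : Fin n → Fin m) (f : Pol c n) (y : Fin m → A),
    toFun m (f.minor p) y = toFun n f (y ∘ p)

/-- number of coordinates of `x` equal to `a` -/
noncomputable def cnt {n : ℕ} {α : Type} (x : Fin n → α) (a : α) : ℕ :=
  Set.ncard {i | x i = a}

theorem cnt_disj {k : ℕ} {α β : Type} (x : Fin (2 * k + 1) → α) (y : Fin (2 * k + 1) → β)
    (a : α) (b : β) (h : ∀ i, ¬ (x i = a ∧ y i = b)) : ¬ (k < cnt x a ∧ k < cnt y b) := by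
  rintro ⟨h1, h2⟩
  have hd : Disjoint {i | x i = a} {i | y i = b} := by
    rw [Set.disjoint_left]
    intro i hx hy
    exact h i ⟨hx, hy⟩
  have hc := Set.ncard_union_eq hd (Set.toFinite _) (Set.toFinite _)
  have hle : ({i | x i = a} ∪ {i | y i = b}).ncard ≤ 2 * k + 1 := by
    calc _ ≤ (Set.univ : Set (Fin (2 * k + 1))).ncard :=
          Set.ncard_le_ncard (Set.subset_univ _) (Set.toFinite _)
      _ = 2 * k + 1 := by simp [Set.ncard_univ]
  unfold cnt at h1 h2
  omega

open Classical in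
/-- value of the threshold colouring -/
noncomputable def thrVal (k : ℕ) (x : Fin (2 * k + 1) → Fin 3) : ℕ :=
  if k < cnt x 0 then 0 else if k < cnt x 1 then 1 else if k < cnt x 2 then 2 else 3 + (x 0).val

theorem thrVal_lt (k : ℕ) (x : Fin (2 * k + 1) → Fin 3) : thrVal k x < 6 := by
  unfold thrVal
  have := (x 0).isLt
  split_ifs <;> omega

theorem thrVal_of_cnt (k : ℕ) (x : Fin (2 * k + 1) → Fin 3) (a : Fin 3) (h : k < cnt x a) :
    thrVal k x = a.val := by
  have huniq : ∀ b : Fin 3, k < cnt x b → b = a := by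
    intro b hb
    by_contra hne
    exact cnt_disj x x b a (fun i hi => hne (hi.1.symm.trans hi.2)) ⟨hb, h⟩
  unfold thrVal
  split_ifs with h0 h1 h2
  · rw [← huniq 0 h0]; rfl
  · rw [← huniq 1 h1]; rfl
  · rw [← huniq 2 h2]; rfl
  · exfalso
    fin_cases a
    · exact h0 h
    · exact h1 h
    · exact h2 h

theorem thrVal_ne (k : ℕ) (x y : Fin (2 * k + 1) → Fin 3) (hxy : ∀ i, x i ≠ y i) :
    thrVal k x ≠ thrVal k y := by
  have key : ∀ a : Fin 3, ¬ (k < cnt x a ∧ k < cnt y a) := fun a =>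
    cnt_disj x y a a (fun i hi => hxy i (hi.1.trans hi.2.symm))
  have k0 := key 0
  have k1 := key 1
  have k2 := key 2
  have h0 : (x 0).val ≠ (y 0).val := fun h => hxy 0 (Fin.ext h)
  unfold thrVal
  split_ifs <;> omega

/-- the threshold polymorphism of arity `2 k + 1` of `(K_3, K_c)` for `c ≥ 6` -/
noncomputable def thr (c : ℕ) (hc : 6 ≤ c) (k : ℕ) : Pol c (2 * k + 1) :=
  ⟨fun x => ⟨thrVal k x, lt_of_lt_of_le (thrVal_lt k x) hc⟩, fun x y h he =>
    thrVal_ne k x y h (congrArg Fin.val he)⟩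

/-- the unary polymorphism given by the inclusion of `K_3` in `K_c` -/
def incl (c : ℕ) (hc : 6 ≤ c) : Pol c 1 :=
  ⟨fun x => ⟨(x 0).val, by have := (x 0).isLt; omega⟩, fun x y h he =>
    h 0 (Fin.ext (by simpa using congrArg Fin.val he))⟩

theorem thr_minor (c : ℕ) (hc : 6 ≤ c) (k m : ℕ) (p : Fin (2 * k + 1) → Fin (m + 1))
    (hp : k < cnt p 0) : (thr c hc k).minor p = (incl c hc).minor (fun _ => 0) := by
  apply Subtype.ext
  funext z
  apply Fin.ext
  change thrVal k (z ∘ p) = (z 0).val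
  apply thrVal_of_cnt
  refine lt_of_lt_of_le hp ?_
  unfold cnt
  apply Set.ncard_le_ncard _ (Set.toFinite _)
  intro i hi
  simp only [Set.mem_ofPred_eq, Function.comp] at hi ⊢
  rw [hi]

theorem barrier (c : ℕ) (hc : 6 ≤ c) {A B : Type} (T : Template A B) (ξ : MinionHom c T) :
    ∃ u : A → B, ∀ k : ℕ, ∃ g : (Fin (2 * k + 1) → A) → B, T.IsPol (2 * k + 1) g ∧
      ∀ (y : Fin (2 * k + 1) → A) (a : A), k < cnt y a → g y = u a := by
  classical
  refine ⟨fun a => ξ.toFun 1 (incl c hc) (fun _ => a), fun k =>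
    ⟨ξ.toFun (2 * k + 1) (thr c hc k), ξ.isPol _ _, fun y a hya => ?_⟩⟩
  let p : Fin (2 * k + 1) → Fin (2 * k + 1 + 1) := fun i => if y i = a then 0 else i.succ
  let w : Fin (2 * k + 1 + 1) → A := Fin.cons a y
  have hp : k < cnt p 0 := by
    have hpc : cnt p 0 = cnt y a := by
      unfold cnt
      congr 1
      ext i
      simp only [Set.mem_ofPred_eq, p]
      by_cases h : y i = a
      · simp [h]
      · simp [h, Fin.succ_ne_zero]
    rw [hpc]; exact hya
  have hy : y = w ∘ p := by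
    funext i
    simp only [Function.comp, p, w]
    by_cases h : y i = a
    · simp [h]
    · simp [h]
  have h1 := ξ.minor (2 * k + 1) (2 * k + 1 + 1) p (thr c hc k) w
  rw [thr_minor c hc k (2 * k + 1) p hp] at h1
  have h2 := ξ.minor 1 (2 * k + 1 + 1) (fun _ => 0) (incl c hc) w
  rw [hy, ← h1, h2]
  congr 1

/-- the pair `(K_3, K_c)` itself as a promise template -/
def colTemplate (c : ℕ) : Template (Fin 3) (Fin c) where
  idx := Unit
  ar := fun _ => 2
  relA := fun _ => {t | t 0 ≠ t 1}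
  relB := fun _ => {t | t 0 ≠ t 1}

theorem colTemplate_isPol (c n : ℕ) (g : (Fin n → Fin 3) → Fin c) :
    (colTemplate c).IsPol n g ↔ IsPol c n g := by
  constructor
  · intro h x y hxy
    exact h () (fun i => ![x i, y i]) (fun i => hxy i)
  · intro h _ M hM
    exact h _ _ hM

/-- the identity minion homomorphism -/
def idHom (c : ℕ) : MinionHom c (colTemplate c) where
  toFun := fun _ f => f.1
  isPol := fun n f => (colTemplate_isPol c n f.1).2 f.2
  minor := fun _ _ _ _ _ => rfl

theorem one_lt_cnt {α : Type} (y : Fin (2 * 1 + 1) → α) (a : α) (i j : Fin (2 * 1 + 1))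
    (hij : i ≠ j) (hi : y i = a) (hj : y j = a) : 1 < cnt y a := by
  unfold cnt
  rw [Set.one_lt_ncard (Set.toFinite _)]
  exact ⟨i, hi, j, hj, hij⟩

theorem six_le (c : ℕ) (u : Fin 3 → Fin c) (g : (Fin (2 * 1 + 1) → Fin 3) → Fin c)
    (hg : IsPol c (2 * 1 + 1) g)
    (hu : ∀ (y : Fin (2 * 1 + 1) → Fin 3) (a : Fin 3), 1 < cnt y a → g y = u a) : 6 ≤ c := by
  have e000 : g ![0, 0, 0] = u 0 := hu _ _ (one_lt_cnt _ _ 0 1 (by decide) rfl rfl)
  have e111 : g ![1, 1, 1] = u 1 := hu _ _ (one_lt_cnt _ _ 0 1 (by decide) rfl rfl)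
  have e222 : g ![2, 2, 2] = u 2 := hu _ _ (one_lt_cnt _ _ 0 1 (by decide) rfl rfl)
  have e100 : g ![1, 0, 0] = u 0 := hu _ _ (one_lt_cnt _ _ 1 2 (by decide) rfl rfl)
  have e121 : g ![1, 2, 1] = u 1 := hu _ _ (one_lt_cnt _ _ 0 2 (by decide) rfl rfl)
  have e220 : g ![2, 2, 0] = u 2 := hu _ _ (one_lt_cnt _ _ 0 1 (by decide) rfl rfl)
  have e001 : g ![0, 0, 1] = u 0 := hu _ _ (one_lt_cnt _ _ 0 1 (by decide) rfl rfl)
  have e211 : g ![2, 1, 1] = u 1 := hu _ _ (one_lt_cnt _ _ 1 2 (by decide) rfl rfl)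
  have e202 : g ![2, 0, 2] = u 2 := hu _ _ (one_lt_cnt _ _ 0 2 (by decide) rfl rfl)
  have e010 : g ![0, 1, 0] = u 0 := hu _ _ (one_lt_cnt _ _ 0 2 (by decide) rfl rfl)
  have e112 : g ![1, 1, 2] = u 1 := hu _ _ (one_lt_cnt _ _ 0 1 (by decide) rfl rfl)
  have e022 : g ![0, 2, 2] = u 2 := hu _ _ (one_lt_cnt _ _ 1 2 (by decide) rfl rfl)
  have u01 : u 0 ≠ u 1 := by rw [← e000, ← e111]; exact hg _ _ (by decide)
  have u02 : u 0 ≠ u 2 := by rw [← e000, ← e222]; exact hg _ _ (by decide)
  have u12 : u 1 ≠ u 2 := by rw [← e111, ← e222]; exact hg _ _ (by decide)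
  have p12 : g ![0, 1, 2] ≠ g ![1, 2, 0] := hg _ _ (by decide)
  have p13 : g ![0, 1, 2] ≠ g ![2, 0, 1] := hg _ _ (by decide)
  have p23 : g ![1, 2, 0] ≠ g ![2, 0, 1] := hg _ _ (by decide)
  have a10 : g ![0, 1, 2] ≠ u 0 := by rw [← e100]; exact hg _ _ (by decide)
  have a11 : g ![0, 1, 2] ≠ u 1 := by rw [← e121]; exact hg _ _ (by decide)
  have a12 : g ![0, 1, 2] ≠ u 2 := by rw [← e220]; exact hg _ _ (by decide)
  have a20 : g ![1, 2, 0] ≠ u 0 := by rw [← e001]; exact hg _ _ (by decide)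
  have a21 : g ![1, 2, 0] ≠ u 1 := by rw [← e211]; exact hg _ _ (by decide)
  have a22 : g ![1, 2, 0] ≠ u 2 := by rw [← e202]; exact hg _ _ (by decide)
  have a30 : g ![2, 0, 1] ≠ u 0 := by rw [← e010]; exact hg _ _ (by decide)
  have a31 : g ![2, 0, 1] ≠ u 1 := by rw [← e112]; exact hg _ _ (by decide)
  have a32 : g ![2, 0, 1] ≠ u 2 := by rw [← e022]; exact hg _ _ (by decide)
  have hcard : ({g ![0, 1, 2], g ![1, 2, 0], g ![2, 0, 1], u 0, u 1, u 2} : Finset (Fin c)).card
      = 6 := by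
    rw [Finset.card_insert_of_notMem (by simp [*]), Finset.card_insert_of_notMem (by simp [*]),
      Finset.card_insert_of_notMem (by simp [*]), Finset.card_insert_of_notMem (by simp [*]),
      Finset.card_insert_of_notMem (by simp [*]), Finset.card_singleton]
  have := Finset.card_le_univ
    ({g ![0, 1, 2], g ![1, 2, 0], g ![2, 0, 1], u 0, u 1, u 2} : Finset (Fin c))
  rw [hcard, Fintype.card_fin] at this
  exact this

/-- Sharp barrier at six colours.  The following holds exactly when `c ≥ 6`: for every promise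
template `T`, if the polymorphisms of `(K_3, K_c)` admit a minion homomorphism to the polymorphisms
of `T`, then there is `u : A → B` such that in every odd arity `2 k + 1` the template `T` has a
polymorphism `g` with `g y = u a` whenever the value `a` occupies more than `k` coordinates of `y`. -/
theorem result (c : ℕ) :
    6 ≤ c ↔ ∀ (A B : Type) (T : Template A B), MinionHom c T →
      ∃ u : A → B, ∀ k : ℕ, ∃ g : (Fin (2 * k + 1) → A) → B, T.IsPol (2 * k + 1) g ∧
        ∀ (y : Fin (2 * k + 1) → A) (a : A), k < cnt y a → g y = u a := by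
  constructor
  · intro hc A B T ξ
    exact barrier c hc T ξ
  · intro h
    obtain ⟨u, hu⟩ := h _ _ (colTemplate c) (idHom c)
    obtain ⟨g, hg, hgu⟩ := hu 1
    exact six_le c u g ((colTemplate_isPol c _ g).1 hg) hgu

end Vale.Agent.Results.P342.AbsMajorityBarrier
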